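import Vale.Agent.P204.Full.Contract

/-!
Shortcut instances for the model spaces, equal to the inferred ones; they only speed up instance search.
-/

noncomputable section

namespace Vale.Agent.P204.Full

instance covNormedGroup : NormedAddCommGroup Cov := ContinuousLinearMap.toNormedAddCommGroup

instance covNormedSpace : NormedSpace ℝ Cov := ContinuousLinearMap.toNormedSpace

instance bilNormedGroup : NormedAddCommGroup Bil := ContinuousLinearMap.toNormedAddCommGroup

instance bilNormedSpace : NormedSpace ℝ Bil := ContinuousLinearMap.toNormedSpace

instance bilContinuousAdd : ContinuousAdd Bil :=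
  (IsTopologicalAddGroup.toContinuousAdd : ContinuousAdd Bil)

instance bilContinuousSMul : ContinuousSMul ℝ Bil := IsBoundedSMul.continuousSMul

end Vale.Agent.P204.Full
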