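import Vale.Agent.P204.Full.Common.Inst

/-!
Linearity of the pointwise operations and of the field classes.
-/

open scoped Manifold ContDiff
open MeasureTheory Set

noncomputable section

namespace Vale.Agent.P204.Full

universe u

/-! ### The model space -/

theorem pullBil_apply (A : Endo) (b : Bil) (u v : R4) : pullBil A b u v = b (A u) (A v) := rfl

theorem pullBil_add (A : Endo) (a b : Bil) : pullBil A (a + b) = pullBil A a + pullBil A b := rfl

theorem pullBil_smul (A : Endo) (t : ℝ) (b : Bil) : pullBil A (t • b) = t • pullBil A b := rfl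

theorem pullBil_sub (A : Endo) (a b : Bil) : pullBil A (a - b) = pullBil A a - pullBil A b := rfl

theorem pullBil_zero (A : Endo) : pullBil A 0 = 0 := rfl

theorem top22_add_left (a a' b : Bil) : top22 (a + a') b = top22 a b + top22 a' b := by
  simp only [top22, add_apply]
  ring

theorem top22_smul_left (t : ℝ) (a b : Bil) : top22 (t • a) b = t * top22 a b := by
  simp only [top22, smul_apply, smul_eq_mul]
  ring

theorem top22_comm (a b : Bil) : top22 a b = top22 b a := by
  simp only [top22]
  ring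

theorem isAlt_zero : IsAlt (0 : Bil) := fun u v => by simp

theorem IsAlt.add {a b : Bil} (ha : IsAlt a) (hb : IsAlt b) : IsAlt (a + b) := fun u v => by
  show a u v + b u v = -(a v u + b v u)
  rw [ha u v, hb u v]
  ring

theorem IsAlt.smul {a : Bil} (ha : IsAlt a) (t : ℝ) : IsAlt (t • a) := fun u v => by
  show t * a u v = -(t * a v u)
  rw [ha u v]
  ring

theorem inv11_add (J : Endo) (a b : Bil) : inv11 J (a + b) = inv11 J a + inv11 J b := by
  simp only [inv11, pullBil_add]
  module

theorem inv11_smul (J : Endo) (t : ℝ) (a : Bil) : inv11 J (t • a) = t • inv11 J a := by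
  simp only [inv11, pullBil_smul]
  module

theorem anti20_add (J : Endo) (a b : Bil) : anti20 J (a + b) = anti20 J a + anti20 J b := by
  simp only [anti20, pullBil_add]
  module

theorem anti20_smul (J : Endo) (t : ℝ) (a : Bil) : anti20 J (t • a) = t • anti20 J a := by
  simp only [anti20, pullBil_smul]
  module

theorem inv11_of_anti (J : Endo) {a : Bil} (h : pullBil J a = -a) : inv11 J a = 0 := by
  simp only [inv11, h]
  module

theorem anti20_of_inv (J : Endo) {a : Bil} (h : pullBil J a = a) : anti20 J a = 0 := by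
  simp only [anti20, h]
  module

theorem inv11_of_inv (J : Endo) {a : Bil} (h : pullBil J a = a) : inv11 J a = a := by
  simp only [inv11, h]
  module

theorem anti20_of_anti (J : Endo) {a : Bil} (h : pullBil J a = -a) : anti20 J a = a := by
  simp only [anti20, h]
  module

theorem inv11_add_anti20 (J : Endo) (a : Bil) : inv11 J a + anti20 J a = a := by
  simp only [inv11, anti20]
  module

/-! ### Fields -/

section Fields

variable {X : Type u} [TopologicalSpace X] [ChartedSpace R4 X]

theorem view2_add (c : OpenPartialHomeomorph X R4) (θ η : X → Bil) :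
    view2 c (θ + η) = view2 c θ + view2 c η := rfl

theorem view2_smul (c : OpenPartialHomeomorph X R4) (t : ℝ) (θ : X → Bil) :
    view2 c (t • θ) = t • view2 c θ := rfl

theorem view2_sub (c : OpenPartialHomeomorph X R4) (θ η : X → Bil) :
    view2 c (θ - η) = view2 c θ - view2 c η := rfl

theorem view2_zero (c : OpenPartialHomeomorph X R4) : view2 c (0 : X → Bil) = 0 := rfl

theorem Smooth2.add {θ η : X → Bil} (h : Smooth2 θ) (k : Smooth2 η) : Smooth2 (θ + η) :=
  ⟨fun x => (h.1 x).add (k.1 x), fun x₀ => by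
    rw [view2_add]
    exact (h.2 x₀).add (k.2 x₀)⟩

theorem Smooth2.smul {θ : X → Bil} (h : Smooth2 θ) (t : ℝ) : Smooth2 (t • θ) :=
  ⟨fun x => (h.1 x).smul t, fun x₀ => by
    rw [view2_smul]
    exact (h.2 x₀).const_smul t⟩

theorem Smooth2.zero : Smooth2 (0 : X → Bil) :=
  ⟨fun _ => isAlt_zero, fun x₀ => by
    rw [view2_zero]
    exact contDiffOn_const⟩

theorem Smooth2.neg {θ : X → Bil} (h : Smooth2 θ) : Smooth2 (-θ) := by
  rw [← neg_one_smul ℝ θ]
  exact h.smul _

theorem Smooth2.sub {θ η : X → Bil} (h : Smooth2 θ) (k : Smooth2 η) : Smooth2 (θ - η) := by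
  rw [sub_eq_add_neg]
  exact h.add k.neg

theorem Cont2.add {θ η : X → Bil} (h : Cont2 θ) (k : Cont2 η) : Cont2 (θ + η) :=
  ⟨fun x => (h.1 x).add (k.1 x), fun x₀ => by
    rw [view2_add]
    exact (h.2 x₀).add (k.2 x₀)⟩

theorem Cont2.smul {θ : X → Bil} (h : Cont2 θ) (t : ℝ) : Cont2 (t • θ) :=
  ⟨fun x => (h.1 x).smul t, fun x₀ => by
    rw [view2_smul]
    exact (h.2 x₀).const_smul t⟩

end Fields

namespace Geo

variable {X : Type u} [TopologicalSpace X] [ChartedSpace R4 X] [IsManifold 𝓘(ℝ, R4) ∞ X]
  (G : Geo X)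

theorem W_add_left (x : X) (a a' b : Bil) : G.W x (a + a') b = G.W x a b + G.W x a' b := by
  simp only [Geo.W, top22_add_left, add_div]

theorem W_smul_left (x : X) (t : ℝ) (a b : Bil) : G.W x (t • a) b = t * G.W x a b := by
  simp only [Geo.W, top22_smul_left, mul_div_assoc]

theorem W_comm (x : X) (a b : Bil) : G.W x a b = G.W x b a := by
  simp only [Geo.W, top22_comm a b]

theorem W_add_right (x : X) (a b b' : Bil) : G.W x a (b + b') = G.W x a b + G.W x a b' := by
  rw [W_comm G x a, W_add_left, W_comm G x b, W_comm G x b']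

theorem W_smul_right (x : X) (t : ℝ) (a b : Bil) : G.W x a (t • b) = t * G.W x a b := by
  rw [W_comm G x a, W_smul_left, W_comm G x b]

theorem p20_add (θ η : X → Bil) : G.p20 (θ + η) = G.p20 θ + G.p20 η :=
  funext fun x => anti20_add (G.J x) (θ x) (η x)

theorem p11_add (θ η : X → Bil) : G.p11 (θ + η) = G.p11 θ + G.p11 η :=
  funext fun x => inv11_add (G.J x) (θ x) (η x)

theorem p20_smul (t : ℝ) (θ : X → Bil) : G.p20 (t • θ) = t • G.p20 θ :=
  funext fun x => anti20_smul (G.J x) t (θ x)

theorem p11_smul (t : ℝ) (θ : X → Bil) : G.p11 (t • θ) = t • G.p11 θ :=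
  funext fun x => inv11_smul (G.J x) t (θ x)

/-- The projection to anti-invariant fields, as a linear map. -/
def p20L : (X → Bil) →ₗ[ℝ] (X → Bil) where
  toFun := G.p20
  map_add' := G.p20_add
  map_smul' := G.p20_smul

theorem p20L_apply (θ : X → Bil) : G.p20L θ = G.p20 θ := rfl

theorem p11_add_p20 (θ : X → Bil) : G.p11 θ + G.p20 θ = θ :=
  funext fun x => inv11_add_anti20 (G.J x) (θ x)

theorem inv_pull {θ : X → Bil} (h : G.Inv θ) (x : X) : pullBil (G.J x) (θ x) = θ x := by
  refine ContinuousLinearMap.ext fun u => ContinuousLinearMap.ext fun v => ?_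
  exact h x u v

theorem anti_pull {θ : X → Bil} (h : G.Anti θ) (x : X) : pullBil (G.J x) (θ x) = -θ x := by
  refine ContinuousLinearMap.ext fun u => ContinuousLinearMap.ext fun v => ?_
  exact h x u v

theorem p20_of_anti {θ : X → Bil} (h : G.Anti θ) : G.p20 θ = θ :=
  funext fun x => anti20_of_anti (G.J x) (G.anti_pull h x)

theorem p11_of_inv {θ : X → Bil} (h : G.Inv θ) : G.p11 θ = θ :=
  funext fun x => inv11_of_inv (G.J x) (G.inv_pull h x)

theorem p20_of_inv {θ : X → Bil} (h : G.Inv θ) : G.p20 θ = 0 :=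
  funext fun x => anti20_of_inv (G.J x) (G.inv_pull h x)

theorem nrm2_eq_nrmVal (θ : X → Bil) (x : X) (hsupp : ∀ i, G.rho i x ≠ 0 → x ∈ (G.c i).source) :
    G.nrm2 θ x = G.nrmVal x (θ x) := by
  refine Finset.sum_congr rfl fun i _ => ?_
  by_cases h : G.rho i x = 0
  · simp [h]
  · simp only [view2]
    rw [(G.c i).left_inv (hsupp i h)]

end Geo

end Vale.Agent.P204.Full
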