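import Vale.Agent.P204.Full.Contract

/-!
Averages of measures and functions over `near`: measurability and the Fubini estimates.
-/

open scoped Manifold ContDiff
open MeasureTheory Set

noncomputable section

namespace Vale.Agent.P204.Full

universe u

variable {X : Type u} [TopologicalSpace X] [T2Space X] [CompactSpace X] [ChartedSpace R4 X]
  [IsManifold 𝓘(ℝ, R4) ∞ X] [MeasurableSpace X] [BorelSpace X] {G : Geo X}

theorem secondCountable_base (X : Type u) [TopologicalSpace X] [T2Space X] [CompactSpace X]
    [ChartedSpace R4 X] : SecondCountableTopology X :=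
  ChartedSpace.secondCountable_of_sigmaCompact R4 X

variable (hB : BaseFacts G)
include hB

theorem near_measurable (r : ℝ) : MeasurableSet {p : X × X | p.2 ∈ G.near r p.1} := by
  have := secondCountable_base X
  exact (hB.near_closed r).measurableSet

omit [T2Space X] [CompactSpace X] in
theorem near_slice_measurable (r : ℝ) (x : X) : MeasurableSet (G.near r x) := by
  have h : G.near r x = Prod.mk x ⁻¹' {p : X × X | p.2 ∈ G.near r p.1} := rfl
  rw [h]
  exact ((hB.near_closed r).preimage (Continuous.prodMk_right x)).measurableSet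

omit [T2Space X] [CompactSpace X] [MeasurableSpace X] [BorelSpace X] hB in
theorem near_mono {r t : ℝ} (h : r ≤ t) (x : X) : G.near r x ⊆ G.near t x := by
  rintro z ⟨i, h1, h2, h3, h4, h5⟩
  exact ⟨i, h1, h2, h3, h4, h5.trans h⟩

theorem near_integral_measurable (r : ℝ) (μ : Measure X) [SFinite μ] {g : X → ℝ}
    (hg : StronglyMeasurable g) : StronglyMeasurable fun x => ∫ z in G.near r x, g z ∂μ := by
  have h : ∀ x, ∫ z in G.near r x, g z ∂μ =
      ∫ z, ({p : X × X | p.2 ∈ G.near r p.1}.indicator (fun p => g p.2)) (x, z) ∂μ := by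
    intro x
    rw [← integral_indicator (near_slice_measurable hB r x)]
    rfl
  simp_rw [h]
  exact ((hg.comp_measurable measurable_snd).indicator
    (near_measurable hB r)).integral_prod_right'

/-- Fubini for averages over `near`. -/
theorem near_integral_swap (r : ℝ) (μ ν : Measure X) [IsFiniteMeasure μ] [IsFiniteMeasure ν]
    {g : X → ℝ} (hg : Integrable g μ) :
    Integrable (fun x => ∫ z in G.near r x, g z ∂μ) ν ∧
      ∫ x, (∫ z in G.near r x, g z ∂μ) ∂ν = ∫ z, g z * ν.real (G.near r z) ∂μ := by
  have := secondCountable_base X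
  let F : X × X → ℝ := {p : X × X | p.2 ∈ G.near r p.1}.indicator fun p => g p.2
  have hF : Integrable F (ν.prod μ) := (hg.comp_snd ν).indicator (near_measurable hB r)
  have h1 : ∀ x, ∫ z, F (x, z) ∂μ = ∫ z in G.near r x, g z ∂μ := by
    intro x
    rw [← integral_indicator (near_slice_measurable hB r x)]
    rfl
  have h2 : ∀ z, ∫ x, F (x, z) ∂ν = g z * ν.real (G.near r z) := by
    intro z
    have h : (fun x => F (x, z)) = (G.near r z).indicator fun _ => g z := by
      funext x
      by_cases hx : z ∈ G.near r x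
      · have hx' := hB.near_symm r x z hx
        rw [indicator_of_mem hx']
        exact indicator_of_mem (show (x, z) ∈ {p : X × X | p.2 ∈ G.near r p.1} from hx) _
      · have hx' : x ∉ G.near r z := fun h => hx (hB.near_symm r z x h)
        rw [indicator_of_notMem hx']
        exact indicator_of_notMem
          (show (x, z) ∉ {p : X × X | p.2 ∈ G.near r p.1} from hx) _
    rw [h, integral_indicator (near_slice_measurable hB r z), setIntegral_const, smul_eq_mul]
    ring
  refine ⟨?_, ?_⟩
  · have h := hF.integral_prod_left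
    simp_rw [h1] at h
    exact h
  · have h := integral_integral_swap (f := fun x z => F (x, z)) (μ := ν) (ν := μ) hF
    simp_rw [h1, h2] at h
    exact h

theorem measureReal_near_measurable (r : ℝ) (μ : Measure X) [IsFiniteMeasure μ] :
    Measurable fun x => μ.real (G.near r x) := by
  have h := (near_integral_measurable hB r μ (g := fun _ => (1 : ℝ)) stronglyMeasurable_const).measurable
  simpa using h

theorem mavg_measurable (r : ℝ) (μ : Measure X) [IsFiniteMeasure μ] :
    Measurable (G.mavg μ r) :=
  (measureReal_near_measurable hB r μ).const_mul _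

theorem dens_measurable (r : ℝ) (μ : Measure X) [IsFiniteMeasure μ] :
    Measurable (G.dens μ r) :=
  (measureReal_near_measurable hB r μ).const_mul _

omit [T2Space X] [CompactSpace X] [BorelSpace X] hB in
theorem mavg_nonneg (r : ℝ) (μ : Measure X) (x : X) : 0 ≤ G.mavg μ r x :=
  mul_nonneg (inv_nonneg.2 ((by decide : Even 4).pow_nonneg r)) measureReal_nonneg

omit [T2Space X] [CompactSpace X] [BorelSpace X] hB in
theorem dens_nonneg (r : ℝ) (μ : Measure X) (x : X) : 0 ≤ G.dens μ r x :=
  mul_nonneg (inv_nonneg.2 (sq_nonneg r)) measureReal_nonneg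

omit [T2Space X] [CompactSpace X] [BorelSpace X] hB in
theorem mavg_le_univ (r : ℝ) (μ : Measure X) [IsFiniteMeasure μ] (x : X) :
    G.mavg μ r x ≤ (r ^ 4)⁻¹ * μ.real univ :=
  mul_le_mul_of_nonneg_left (measureReal_mono (subset_univ _))
    (inv_nonneg.2 ((by decide : Even 4).pow_nonneg r))

omit [T2Space X] [CompactSpace X] [BorelSpace X] hB in
theorem mavg_mono {μ μ' : Measure X} [IsFiniteMeasure μ'] (h : μ ≤ μ') (r : ℝ) (x : X) :
    G.mavg μ r x ≤ G.mavg μ' r x := by
  refine mul_le_mul_of_nonneg_left ?_ (inv_nonneg.2 ((by decide : Even 4).pow_nonneg r))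
  exact ENNReal.toReal_mono (measure_ne_top μ' _) (h _)

theorem mavg_integrable (r : ℝ) (μ ν : Measure X) [IsFiniteMeasure μ] [IsFiniteMeasure ν] :
    Integrable (G.mavg μ r) ν :=
  Integrable.of_bound (mavg_measurable hB r μ).aestronglyMeasurable ((r ^ 4)⁻¹ * μ.real univ)
    (Filter.Eventually.of_forall fun x => by
      rw [Real.norm_eq_abs, abs_of_nonneg (mavg_nonneg r μ x)]
      exact mavg_le_univ r μ x)

/-- The mass of an average. -/
theorem mavg_integral_le : ∃ C : ℝ, ∀ (μ : Measure X) [IsFiniteMeasure μ] (r : ℝ), 0 < r → r ≤ 1 →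
    ∫ x, G.mavg μ r x ∂G.vol ≤ C * μ.real univ := by
  obtain ⟨C, hC⟩ := hB.vol_near
  have := hB.vol_finite
  refine ⟨C, fun μ _ r hr hr1 => ?_⟩
  have hs := (near_integral_swap hB r μ G.vol (integrable_const (1 : ℝ))).2
  have hi : Integrable (fun z => (1 : ℝ) * G.vol.real (G.near r z)) μ :=
    Integrable.of_bound (by simpa using (measureReal_near_measurable hB r G.vol).aestronglyMeasurable)
      (G.vol.real univ) (Filter.Eventually.of_forall fun x => by
        rw [one_mul, Real.norm_eq_abs, abs_of_nonneg measureReal_nonneg]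
        exact measureReal_mono (subset_univ _))
  have hle : ∫ z, (1 : ℝ) * G.vol.real (G.near r z) ∂μ ≤ ∫ _z, C * r ^ 4 ∂μ :=
    integral_mono hi (integrable_const _) fun z => by
      simpa using (hC r z hr hr1).1
  simp only [setIntegral_const, smul_eq_mul, mul_one, one_mul] at hs hle
  rw [integral_const, smul_eq_mul] at hle
  calc ∫ x, G.mavg μ r x ∂G.vol = (r ^ 4)⁻¹ * ∫ x, μ.real (G.near r x) ∂G.vol :=
        integral_const_mul _ _
    _ ≤ (r ^ 4)⁻¹ * (μ.real univ * (C * r ^ 4)) := by
        rw [hs]
        gcongr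
    _ = C * μ.real univ := by field_simp

/-- The product of two averages is controlled by the density of one measure in the other. -/
theorem mavg_mul_le : ∃ A C r0 : ℝ, 1 ≤ C ∧ 0 < r0 ∧ r0 ≤ 1 ∧ ∀ (μ μ' : Measure X)
    [IsFiniteMeasure μ] [IsFiniteMeasure μ'] (r : ℝ), 0 < r → r ≤ r0 →
      r ^ 2 * ∫ x, G.mavg μ r x * G.mavg μ' r x ∂G.vol ≤ A * ∫ z, G.dens μ (C * r) z ∂μ' := by
  obtain ⟨V, hV⟩ := hB.vol_near
  obtain ⟨C, r0, hC1, hr0, htr⟩ := hB.near_trans
  have := hB.vol_finite
  refine ⟨max V 0 * (2 * C) ^ 2, 2 * C, min (r0 / 2) 1, by linarith,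
    lt_min (by linarith) one_pos, min_le_right _ _, fun μ μ' _ _ r hr hr0' => ?_⟩
  set K := 2 * C with hK
  have hr1 : r ≤ 1 := hr0'.trans (min_le_right _ _)
  have hK0 : 0 < K := by linarith
  let g : X → ℝ := fun z => μ.real (G.near (K * r) z)
  have hg : Measurable g := measureReal_near_measurable hB _ μ
  have hgi : Integrable g μ' := Integrable.of_bound hg.aestronglyMeasurable (μ.real univ)
    (Filter.Eventually.of_forall fun x => by
      rw [Real.norm_eq_abs, abs_of_nonneg measureReal_nonneg]
      exact measureReal_mono (subset_univ _))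
  obtain ⟨hint, hsw⟩ := near_integral_swap hB r μ' G.vol hgi
  have hpt : ∀ x, μ.real (G.near r x) * μ'.real (G.near r x) ≤
      ∫ z in G.near r x, g z ∂μ' := by
    intro x
    have hc : ∀ z ∈ G.near r x, μ.real (G.near r x) ≤ g z := by
      intro z hz
      refine measureReal_mono ?_
      intro y hy
      have h1 := htr r r z x y hr.le hr.le (by linarith [hr0'.trans (min_le_left _ _)])
        (hB.near_symm r x z hz) hy
      refine near_mono ?_ z h1
      nlinarith
    calc μ.real (G.near r x) * μ'.real (G.near r x)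
        = ∫ _z in G.near r x, μ.real (G.near r x) ∂μ' := by
          rw [setIntegral_const, smul_eq_mul, mul_comm]
      _ ≤ ∫ z in G.near r x, g z ∂μ' :=
          setIntegral_mono_on (integrable_const _).integrableOn hgi.integrableOn
            (near_slice_measurable hB r x) hc
  have hle : ∫ x, μ.real (G.near r x) * μ'.real (G.near r x) ∂G.vol ≤
      max V 0 * r ^ 4 * ∫ z, g z ∂μ' := by
    have hprod : Integrable (fun x => μ.real (G.near r x) * μ'.real (G.near r x)) G.vol := by
      refine Integrable.of_bound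
        ((measureReal_near_measurable hB r μ).mul
          (measureReal_near_measurable hB r μ')).aestronglyMeasurable
        (μ.real univ * μ'.real univ) (Filter.Eventually.of_forall fun x => ?_)
      rw [Real.norm_eq_abs, abs_of_nonneg (mul_nonneg measureReal_nonneg measureReal_nonneg)]
      exact mul_le_mul (measureReal_mono (subset_univ _)) (measureReal_mono (subset_univ _))
        measureReal_nonneg measureReal_nonneg
    refine (integral_mono hprod hint hpt).trans ?_
    rw [hsw, ← integral_const_mul]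
    refine integral_mono_of_nonneg (Filter.Eventually.of_forall fun z =>
      mul_nonneg measureReal_nonneg measureReal_nonneg) (hgi.const_mul _)
      (Filter.Eventually.of_forall fun z => ?_)
    show g z * G.vol.real (G.near r z) ≤ max V 0 * r ^ 4 * g z
    rw [mul_comm _ (g z)]
    refine mul_le_mul_of_nonneg_left ((hV r z hr hr1).1.trans ?_) measureReal_nonneg
    exact mul_le_mul_of_nonneg_right (le_max_left _ _) (by positivity)
  have hI : 0 ≤ ∫ z, g z ∂μ' := integral_nonneg fun z => measureReal_nonneg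
  have hdens : ∫ z, G.dens μ (K * r) z ∂μ' = ((K * r) ^ 2)⁻¹ * ∫ z, g z ∂μ' :=
    integral_const_mul _ _
  have hlhs : ∫ x, G.mavg μ r x * G.mavg μ' r x ∂G.vol =
      (r ^ 8)⁻¹ * ∫ x, μ.real (G.near r x) * μ'.real (G.near r x) ∂G.vol := by
    rw [← integral_const_mul]
    congr 1
    funext x
    simp only [Geo.mavg]
    field_simp
  rw [hlhs, hdens]
  have hr8 : 0 < r ^ 8 := by positivity
  calc r ^ 2 * ((r ^ 8)⁻¹ * ∫ x, μ.real (G.near r x) * μ'.real (G.near r x) ∂G.vol)
      ≤ r ^ 2 * ((r ^ 8)⁻¹ * (max V 0 * r ^ 4 * ∫ z, g z ∂μ')) := by gcongr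
    _ = max V 0 * ((r ^ 2)⁻¹ * ∫ z, g z ∂μ') := by field_simp
    _ = _ := by
        rw [hK]
        field_simp

omit [T2Space X] [CompactSpace X] [BorelSpace X] hB in
theorem avg_nonneg (r : ℝ) {g : X → ℝ} (hg : ∀ x, 0 ≤ g x) (x : X) : 0 ≤ G.avg r g x :=
  mul_nonneg (inv_nonneg.2 ((by decide : Even 4).pow_nonneg r)) (integral_nonneg hg)

theorem avg_measurable (r : ℝ) {g : X → ℝ} (hg : StronglyMeasurable g) :
    Measurable (G.avg r g) := by
  have := hB.vol_finite
  exact (near_integral_measurable hB r G.vol hg).measurable.const_mul _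

theorem avg_integrable (r : ℝ) (μ : Measure X) [IsFiniteMeasure μ] {g : X → ℝ}
    (hg : Integrable g G.vol) : Integrable (G.avg r g) μ := by
  have := hB.vol_finite
  exact (near_integral_swap hB r G.vol μ hg).1.const_mul _

/-- Integrating an average against a measure is pairing with the average of the measure. -/
theorem avg_integral_eq (r : ℝ) (μ : Measure X) [IsFiniteMeasure μ] {g : X → ℝ}
    (hg : Integrable g G.vol) :
    ∫ x, G.avg r g x ∂μ = ∫ z, g z * G.mavg μ r z ∂G.vol := by
  have := hB.vol_finite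
  have h := (near_integral_swap hB r G.vol μ hg).2
  unfold Geo.avg
  rw [integral_const_mul, h, ← integral_const_mul]
  congr 1
  funext z
  simp only [Geo.mavg]
  ring

/-- Averaging is bounded in `L²`. -/
theorem avg_sq_le : ∃ C : ℝ, ∀ (g : X → ℝ) (r : ℝ), 0 < r → r ≤ 1 → (∀ x, 0 ≤ g x) →
    Measurable g → MemLp g 2 G.vol →
      Integrable (fun x => G.avg r g x ^ 2) G.vol ∧
        ∫ x, G.avg r g x ^ 2 ∂G.vol ≤ C * ∫ x, g x ^ 2 ∂G.vol := by
  have := hB.vol_finite
  obtain ⟨V, hV⟩ := hB.vol_near
  refine ⟨max V 0 * max V 0, fun g r hr hr1 hg hgm hg2 => ?_⟩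
  set V' := max V 0 with hV'
  have hV0 : 0 ≤ V' := le_max_right _ _
  have hsq : Integrable (fun x => g x ^ 2) G.vol := hg2.integrable_sq
  have hg1 : Integrable g G.vol := hg2.integrable (by norm_num)
  have hm : StronglyMeasurable g := hgm.stronglyMeasurable
  have hvle : ∀ x, G.vol.real (G.near r x) ≤ V' * r ^ 4 := fun x =>
    (hV r x hr hr1).1.trans (mul_le_mul_of_nonneg_right (le_max_left _ _) (by positivity))
  have hpt : ∀ x, G.avg r g x ^ 2 ≤ V' * ((r ^ 4)⁻¹ * ∫ z in G.near r x, g z ^ 2 ∂G.vol) := by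
    intro x
    set a := ∫ z in G.near r x, g z ∂G.vol with ha
    set b := ∫ z in G.near r x, g z ^ 2 ∂G.vol with hb
    have hb0 : 0 ≤ b := integral_nonneg fun z => sq_nonneg _
    have hkey : ∀ t : ℝ, 0 ≤ G.vol.real (G.near r x) * t ^ 2 - 2 * a * t + b := by
      intro t
      have e : ∫ z in G.near r x, (g z - t) ^ 2 ∂G.vol =
          G.vol.real (G.near r x) * t ^ 2 - 2 * a * t + b := by
        have e1 : (fun z => (g z - t) ^ 2) = fun z => g z ^ 2 - 2 * t * g z + t ^ 2 := by
          funext z
          ring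
        rw [e1, integral_add (hsq.integrableOn.fun_sub (hg1.integrableOn.const_mul _))
          (integrable_const _), integral_sub hsq.integrableOn (hg1.integrableOn.const_mul _),
          integral_const_mul, setIntegral_const, smul_eq_mul]
        ring
      rw [← e]
      exact integral_nonneg fun z => sq_nonneg _
    have hvol : 0 ≤ G.vol.real (G.near r x) := measureReal_nonneg
    have hdisc : a ^ 2 ≤ G.vol.real (G.near r x) * b := by
      have h := discrim_le_zero (a := G.vol.real (G.near r x)) (b := -2 * a) (c := b)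
        (fun t => by have := hkey t; nlinarith)
      unfold discrim at h
      nlinarith
    have h4 : 0 < r ^ 4 := by positivity
    show ((r ^ 4)⁻¹ * a) ^ 2 ≤ V' * ((r ^ 4)⁻¹ * b)
    calc ((r ^ 4)⁻¹ * a) ^ 2 = (r ^ 4)⁻¹ * (r ^ 4)⁻¹ * a ^ 2 := by ring
      _ ≤ (r ^ 4)⁻¹ * (r ^ 4)⁻¹ * (V' * r ^ 4 * b) := by
          refine mul_le_mul_of_nonneg_left ?_ (by positivity)
          exact hdisc.trans (mul_le_mul_of_nonneg_right (hvle x) hb0)
      _ = V' * ((r ^ 4)⁻¹ * b) := by field_simp
  obtain ⟨hi, hs⟩ := near_integral_swap hB r G.vol G.vol hsq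
  have hdom := (hi.const_mul (r ^ 4)⁻¹).const_mul V'
  have hmeas : Measurable (G.avg r g) := avg_measurable hB r hm
  refine ⟨hdom.mono' (hmeas.pow_const 2).aestronglyMeasurable
    (Filter.Eventually.of_forall fun x => by
      rw [Real.norm_eq_abs, abs_of_nonneg (sq_nonneg _)]
      exact hpt x), ?_⟩
  refine (integral_mono_of_nonneg (Filter.Eventually.of_forall fun x => sq_nonneg _) hdom
    (Filter.Eventually.of_forall hpt)).trans ?_
  rw [integral_const_mul, integral_const_mul, hs, mul_assoc V' V']
  refine mul_le_mul_of_nonneg_left ?_ hV0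
  rw [← integral_const_mul, ← integral_const_mul]
  refine integral_mono_of_nonneg (Filter.Eventually.of_forall fun z => by positivity)
    (hsq.const_mul _) (Filter.Eventually.of_forall fun z => ?_)
  show (r ^ 4)⁻¹ * (g z ^ 2 * G.vol.real (G.near r z)) ≤ V' * g z ^ 2
  have h4 : 0 < r ^ 4 := by positivity
  rw [inv_mul_le_iff₀ h4]
  calc g z ^ 2 * G.vol.real (G.near r z) ≤ g z ^ 2 * (V' * r ^ 4) :=
        mul_le_mul_of_nonneg_left (hvle z) (sq_nonneg _)
    _ = r ^ 4 * (V' * g z ^ 2) := by ring

end Vale.Agent.P204.Full
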