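import Vale.Agent.P204.Full.Common.Avg
import Vale.Agent.P204.Full.Common.Linear

/-!
Local lemmas: the frame of the preferred chart, small sets, prescribed values, localised tests.
-/

open scoped Manifold ContDiff Topology
open MeasureTheory Set Filter

noncomputable section

namespace Vale.Agent.P204.Full

universe u

section Frame

variable {X : Type u} [TopologicalSpace X] [ChartedSpace R4 X] [IsManifold 𝓘(ℝ, R4) ∞ X]

theorem dsymm_chart_centre (x : X) :
    dsymm (chartAt R4 x) (chartAt R4 x x) = ContinuousLinearMap.id ℝ R4 := by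
  have hx : x ∈ (chartAt R4 x).source := mem_chart_source R4 x
  have h1 : (mfderiv 𝓘(ℝ, R4) 𝓘(ℝ, R4) (chartAt R4 x) x : R4 →L[ℝ] R4) =
      ContinuousLinearMap.id ℝ R4 := by
    rw [mfderiv_chartAt_eq_tangentCoordChange hx]
    refine ContinuousLinearMap.ext fun v => ?_
    exact tangentCoordChange_self (mem_extChartAt_source x)
  have h2 := (mdifferentiable_chart (I := 𝓘(ℝ, R4)) x).symm_comp_deriv hx
  refine ContinuousLinearMap.ext fun v => ?_
  have h3 := ContinuousLinearMap.ext_iff.1 h2 v
  show mfderiv 𝓘(ℝ, R4) 𝓘(ℝ, R4) (chartAt R4 x).symm (chartAt R4 x x) v = v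
  have h4 : mfderiv 𝓘(ℝ, R4) 𝓘(ℝ, R4) (chartAt R4 x) x v = v :=
    ContinuousLinearMap.ext_iff.1 h1 v
  exact (congrArg (fun w => mfderiv 𝓘(ℝ, R4) 𝓘(ℝ, R4) (chartAt R4 x).symm (chartAt R4 x x) w)
    h4.symm).trans h3

theorem view1_centre (α : X → Cov) (x : X) :
    view1 (chartAt R4 x) α (chartAt R4 x x) = α x := by
  rw [view1, dsymm_chart_centre, (chartAt R4 x).left_inv (mem_chart_source R4 x)]
  rfl

theorem view2_centre (θ : X → Bil) (x : X) :
    view2 (chartAt R4 x) θ (chartAt R4 x x) = θ x := by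
  rw [view2, dsymm_chart_centre, (chartAt R4 x).left_inv (mem_chart_source R4 x)]
  rfl

end Frame

variable {X : Type u} [TopologicalSpace X] [T2Space X] [CompactSpace X] [ChartedSpace R4 X]
  [IsManifold 𝓘(ℝ, R4) ∞ X] [MeasurableSpace X] [BorelSpace X] {G : Geo X}

omit [T2Space X] [CompactSpace X] [BorelSpace X] in
/-- A smooth one-form with a prescribed value at one point. -/
theorem exists_cov_field (hB : BaseFacts G) (x : X) (a : Cov) :
    ∃ α : X → Cov, Smooth1 α ∧ α x = a := by
  set c := chartAt R4 x with hc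
  have hx : x ∈ c.source := mem_chart_source R4 x
  obtain ⟨ε, hε, hball⟩ := Metric.isOpen_iff.1 c.open_target (c x) (c.map_source hx)
  let f : ContDiffBump (c x) := ⟨ε / 4, ε / 2, by linarith, by linarith⟩
  have hsm : ContDiff ℝ ∞ fun y => f y • a := f.contDiff.smul contDiff_const
  have hsupp : HasCompactSupport fun y => f y • a := f.hasCompactSupport.smul_right
  have hts : tsupport (fun y => f y • a) ⊆ c.target := by
    refine (tsupport_smul_subset_left _ _).trans ?_
    rw [f.tsupport_eq]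
    exact (Metric.closedBall_subset_ball (by show ε / 2 < ε; linarith)).trans hball
  obtain ⟨h1, h2⟩ := hB.push1_smooth c
    (IsManifold.chart_mem_maximalAtlas (n := ∞) x) _ hsm hsupp hts
  refine ⟨push1 c fun y => f y • a, h1, ?_⟩
  have h3 := h2 (c x) (c.map_source hx)
  rw [view1_centre] at h3
  rw [h3]
  show f (c x) • a = a
  rw [f.one_of_mem_closedBall (Metric.mem_closedBall_self (by show 0 ≤ ε / 4; linarith)), one_smul]

omit [T2Space X] [CompactSpace X] [BorelSpace X] in
/-- Small `near` sets are small neighbourhoods. -/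
theorem near_basis (hB : BaseFacts G) (x : X) {U : Set X} (hU : U ∈ 𝓝 x) :
    (∃ r : ℝ, 0 < r ∧ r ≤ 1 ∧ G.near r x ⊆ U) ∧ ∀ r : ℝ, 0 < r → G.near r x ∈ 𝓝 x := by
  obtain ⟨C, r0, hC, hr0, hnc⟩ := hB.near_chart
  obtain ⟨i, hxi, hx1⟩ := G.c_cover x
  have hx5 : ‖G.c i x‖ ≤ 5 / 2 := hx1.trans (by norm_num)
  constructor
  · have hmap : (G.c i).symm ⁻¹' U ∈ 𝓝 (G.c i x) := by
      refine ((G.c i).continuousAt_symm ((G.c i).map_source hxi)).preimage_mem_nhds ?_
      rw [(G.c i).left_inv hxi]
      exact hU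
    obtain ⟨ε, hε, hball⟩ := Metric.mem_nhds_iff.1 hmap
    have hC0 : 0 < C := by linarith
    refine ⟨min (min r0 1) (ε / (2 * C)), lt_min (lt_min hr0 one_pos) (by positivity),
      (min_le_left _ _).trans (min_le_right _ _), ?_⟩
    intro z hz
    obtain ⟨hzs, hzb⟩ := (hnc i x _ (le_min (le_min hr0.le zero_le_one) (by positivity))
      ((min_le_left _ _).trans (min_le_left _ _)) hxi hx5).2 hz
    have hlt : C * min (min r0 1) (ε / (2 * C)) < ε := by
      calc C * min (min r0 1) (ε / (2 * C)) ≤ C * (ε / (2 * C)) :=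
            mul_le_mul_of_nonneg_left (min_le_right _ _) hC0.le
        _ = ε / 2 := by field_simp
        _ < ε := half_lt_self hε
    have h1 := hball (Metric.closedBall_subset_ball hlt hzb)
    rw [mem_preimage, (G.c i).left_inv hzs] at h1
    exact h1
  · intro r hr
    have hr' : 0 < min r r0 := lt_min hr hr0
    refine mem_of_superset ?_ (((hnc i x _ hr'.le (min_le_right _ _) hxi hx5).1).trans
      (near_mono (min_le_left _ _) x))
    exact inter_mem ((G.c i).open_source.mem_nhds hxi)
      (((G.c i).continuousAt hxi).preimage_mem_nhds (Metric.closedBall_mem_nhds _ hr'))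

omit [T2Space X] [CompactSpace X] [BorelSpace X] in
/-- `ω ∧ ω` charges every neighbourhood. -/
theorem vol_nhds_pos (hB : BaseFacts G) (x : X) {U : Set X} (hU : U ∈ 𝓝 x) :
    0 < G.vol.real U := by
  obtain ⟨r, hr, hr1, hsub⟩ := (near_basis hB x hU).1
  obtain ⟨V, hV⟩ := hB.vol_near
  have := hB.vol_finite
  refine lt_of_lt_of_le ?_ (measureReal_mono hsub)
  rcases measureReal_nonneg.eq_or_lt with h | h
  · have h4 := (hV r x hr hr1).2
    rw [← h, mul_zero] at h4
    exact absurd h4 (not_le.2 (by positivity))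
  · exact h

/-- A continuous function whose integral against every small bump is nonnegative is nonnegative. -/
theorem nonneg_of_tested (hB : BaseFacts G) {φ : X → ℝ} (hφ : Continuous φ) (x : X) {U : Set X}
    (hU : U ∈ 𝓝 x)
    (h : ∀ f : X → ℝ, ContMDiff 𝓘(ℝ, R4) 𝓘(ℝ, ℝ) ∞ f → (∀ z, 0 ≤ f z) →
      Function.support f ⊆ U → 0 ≤ ∫ z, f z * φ z ∂G.vol) :
    0 ≤ φ x := by
  by_contra hneg
  rw [not_le] at hneg
  have hV : {z | φ z < φ x / 2} ∩ U ∈ 𝓝 x :=
    inter_mem ((isOpen_lt hφ continuous_const).mem_nhds (show φ x < φ x / 2 by linarith)) hU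
  obtain ⟨f, -, hf⟩ := (SmoothBumpFunction.nhds_basis_tsupport (I := 𝓘(ℝ, R4)) x).mem_iff.1 hV
  have hfs : Function.support f ⊆ {z | φ z < φ x / 2} ∩ U := subset_closure.trans hf
  have hfc : Continuous f := f.continuous
  have hfin := hB.vol_finite
  have hint : Integrable (fun z => f z * φ z) G.vol :=
    (hfc.mul hφ).integrable_of_hasCompactSupport (HasCompactSupport.of_compactSpace _)
  have hint2 : Integrable (fun z => φ x / 2 * f z) G.vol :=
    (continuous_const.mul hfc).integrable_of_hasCompactSupport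
      (HasCompactSupport.of_compactSpace _)
  have hle : ∀ z, f z * φ z ≤ φ x / 2 * f z := by
    intro z
    by_cases hz : f z = 0
    · simp [hz]
    · have h1 : φ z < φ x / 2 := (hfs hz).1
      nlinarith [f.nonneg (x := z)]
  have hpos : 0 < ∫ z, f z ∂G.vol := by
    obtain ⟨W, hWsub, hWo, hxW⟩ : ∃ W ⊆ {z | (1 : ℝ) / 2 < f z}, IsOpen W ∧ x ∈ W :=
      ⟨_, subset_rfl, isOpen_lt continuous_const hfc,
        by show (1 : ℝ) / 2 < f x; rw [f.eq_one]; norm_num⟩
    have hWm : MeasurableSet W := hWo.measurableSet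
    have hfi : Integrable f G.vol :=
      hfc.integrable_of_hasCompactSupport (HasCompactSupport.of_compactSpace _)
    calc (0 : ℝ) < G.vol.real W * (1 / 2) :=
          mul_pos (vol_nhds_pos hB x (hWo.mem_nhds hxW)) (by norm_num)
      _ = ∫ _z in W, (1 / 2 : ℝ) ∂G.vol := by rw [setIntegral_const, smul_eq_mul]
      _ ≤ ∫ z in W, f z ∂G.vol :=
          setIntegral_mono_on (integrable_const _).integrableOn hfi.integrableOn hWm
            fun z hz => (hWsub hz).le
      _ ≤ ∫ z, f z ∂G.vol :=
          setIntegral_le_integral hfi (Eventually.of_forall fun z => f.nonneg)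
  have h0 := h f f.contMDiff (fun z => f.nonneg) (hfs.trans inter_subset_right)
  have h1 : ∫ z, f z * φ z ∂G.vol ≤ φ x / 2 * ∫ z, f z ∂G.vol := by
    rw [← integral_const_mul]
    exact integral_mono hint hint2 hle
  nlinarith

end Vale.Agent.P204.Full
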